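import Vale.Agent.P132.M723.Limit

/-!
# P132: norm limits of normal states are normal
-/

open Filter Topology
open scoped ComplexConjugate InnerProductSpace

namespace Vale.Agent.P132

universe u

variable {H : Type u} [NormedAddCommGroup H] [InnerProductSpace ℂ H] [CompleteSpace H]

theorem NPF.vec (M : VonNeumannAlgebra H) (η : H) : NPF M (fun x => ⟪η, x η⟫_ℂ) (‖η‖ ^ 2) := by
  refine ⟨fun i => if i = 0 then η else 0, ‖η‖ ^ 2, ?_, le_rfl, fun x _ => ?_⟩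
  · have h := hasSum_single (f := fun i : ℕ => ‖(if i = 0 then η else 0 : H)‖ ^ 2) 0
      (fun b hb => by simp [hb])
    simpa using h
  · have h := hasSum_single (f := fun i : ℕ =>
      ⟪(if i = 0 then η else 0 : H), x (if i = 0 then η else 0 : H)⟫_ℂ) 0
      (fun b hb => by simp [hb])
    simpa using h

theorem NPF.add {M : VonNeumannAlgebra H} {ρ σ : (H →L[ℂ] H) → ℂ} {m n : ℝ} (h : NPF M ρ m)
    (h' : NPF M σ n) :
    ∃ θ : (H →L[ℂ] H) → ℂ, NPF M θ (m + n) ∧ ∀ x ∈ M, θ x = ρ x + σ x := by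
  obtain ⟨θ, h1, h2⟩ := NPF.sum (M := M) (κ := Bool) Finset.univ
    (ρ := fun b => if b then ρ else σ) (m := fun b => if b then m else n)
    (fun k _ => by cases k <;> simpa)
  exact ⟨θ, by simpa using h1, fun x hx => by simpa using h2 x hx⟩

namespace Lim

open PD

/-- functionals on which the bidual acts through `M` -/
def NN (M : VonNeumannAlgebra H) : Set (MT M →L[ℂ] ℂ) :=
  {D | ∀ (F : (MT M →L[ℂ] ℂ) →L[ℂ] ℂ) (a : H →L[ℂ] H) (ha : a ∈ M),
    (∀ η ζ, F (vf M η ζ) = ⟪η, a ζ⟫_ℂ) → F D = D (MT.mk a ha)}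

variable {M : VonNeumannAlgebra H}

theorem NN.vf (η ζ : H) : PD.vf M η ζ ∈ NN M := by
  intro F a ha h
  rw [h]; rfl

theorem NN.nf (f : EllTwo H) : PD.nf M f ∈ NN M := by
  intro F a ha h
  rw [rep_nf h, nf_apply, MT.op_mk]

theorem NN.sub {D E : MT M →L[ℂ] ℂ} (hD : D ∈ NN M) (hE : E ∈ NN M) : D - E ∈ NN M := by
  intro F a ha h
  rw [map_sub, hD F a ha h, hE F a ha h]; rfl

theorem real_smul_eq (c : ℝ) (D : MT M →L[ℂ] ℂ) : c • D = (c : ℂ) • D :=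
  (algebraMap_smul ℂ c D).symm

theorem NN.smul {D : MT M →L[ℂ] ℂ} (hD : D ∈ NN M) (c : ℝ) : c • D ∈ NN M := by
  intro F a ha h
  rw [real_smul_eq, map_smul, hD F a ha h]; rfl

theorem NN.convex : Convex ℝ (NN M) := by
  intro D hD E hE a b _ _ _ F c hc h
  rw [map_add, NN.smul hD a F c hc h, NN.smul hE b F c hc h]; rfl

theorem NN.closed : IsClosed (NN M) := by
  have h1 : NN M = ⋂ (F : (MT M →L[ℂ] ℂ) →L[ℂ] ℂ) (a : H →L[ℂ] H) (ha : a ∈ M)
      (_ : ∀ η ζ, F (PD.vf M η ζ) = ⟪η, a ζ⟫_ℂ), {D | F D = D (MT.mk a ha)} := by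
    ext D; simp [NN]
  rw [h1]
  refine isClosed_iInter fun F => isClosed_iInter fun a => isClosed_iInter fun ha =>
    isClosed_iInter fun _ => isClosed_eq F.continuous ?_
  exact (ContinuousLinearMap.apply ℂ ℂ (MT.mk a ha)).continuous

/-- functionals dominated by a normal positive functional -/
def DD (M : VonNeumannAlgebra H) (r : ℝ) : Set (MT M →L[ℂ] ℂ) :=
  {z | ∃ ρ, NPF M ρ r ∧ ∀ y (hy : y ∈ M),
    (z (MT.mk (star y * y) (mul_mem (star_mem hy) hy))).re ≤ (ρ (star y * y)).re}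

theorem DD.convex (r : ℝ) : Convex ℝ (DD M r) := by
  rintro z ⟨ρ, h1, h2⟩ w ⟨σ, h3, h4⟩ a b ha hb hab
  obtain ⟨θ, h5, h6⟩ := (h1.smul ha).add (h3.smul hb)
  refine ⟨θ, h5.mono (by rw [← add_mul, hab, one_mul]), fun y hy => ?_⟩
  rw [h6 _ (mul_mem (star_mem hy) hy), real_smul_eq, real_smul_eq]
  have e : ((((a : ℂ) • z + (b : ℂ) • w) (MT.mk (star y * y) (mul_mem (star_mem hy) hy)))).re =
      a * (z (MT.mk (star y * y) (mul_mem (star_mem hy) hy))).re +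
      b * (w (MT.mk (star y * y) (mul_mem (star_mem hy) hy))).re := by
    rw [← Complex.re_ofReal_mul, ← Complex.re_ofReal_mul, ← Complex.add_re]; rfl
  rw [e, Complex.add_re, Complex.re_ofReal_mul, Complex.re_ofReal_mul]
  exact add_le_add (mul_le_mul_of_nonneg_left (h2 y hy) ha) (mul_le_mul_of_nonneg_left (h4 y hy) hb)

theorem DD.vf {r : ℝ} (hr : 0 ≤ r) {η ζ : H} (hη : ‖η‖ ≤ 1) (hζ : ‖ζ‖ ≤ 1) :
    r • PD.vf M η ζ ∈ DD M r := by
  have h1 := (NPF.vec M η).smul (c := r / 2) (by positivity)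
  have h2 := (NPF.vec M ζ).smul (c := r / 2) (by positivity)
  obtain ⟨θ, h5, h6⟩ := h1.add h2
  refine ⟨θ, h5.mono ?_, fun y hy => ?_⟩
  · have b1 : ‖η‖ ^ 2 ≤ 1 := pow_le_one₀ (norm_nonneg _) hη
    have b2 : ‖ζ‖ ^ 2 ≤ 1 := pow_le_one₀ (norm_nonneg _) hζ
    nlinarith
  · rw [h6 _ (mul_mem (star_mem hy) hy), real_smul_eq]
    have e : (((r : ℂ) • PD.vf M η ζ) (MT.mk (star y * y) (mul_mem (star_mem hy) hy))).re =
        r * (⟪y η, y ζ⟫_ℂ).re := by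
      rw [← Complex.re_ofReal_mul]
      show ((r : ℂ) * ⟪η, (star y * y) ζ⟫_ℂ).re = _
      congr 2
      show ⟪η, star y (y ζ)⟫_ℂ = _
      rw [BC.inner_star']
    rw [e]
    show _ ≤ (((r / 2 : ℝ) : ℂ) * ⟪η, (star y * y) η⟫_ℂ + ((r / 2 : ℝ) : ℂ) * ⟪ζ, (star y * y) ζ⟫_ℂ).re
    rw [Complex.add_re, Complex.re_ofReal_mul, Complex.re_ofReal_mul, Cmp.inner_star_mul_self,
      Cmp.inner_star_mul_self, ← Complex.ofReal_pow, ← Complex.ofReal_pow, Complex.ofReal_re,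
      Complex.ofReal_re]
    have h3 : (⟪y η, y ζ⟫_ℂ).re ≤ ‖y η‖ * ‖y ζ‖ :=
      (Complex.re_le_norm _).trans (norm_inner_le_norm _ _)
    nlinarith [mul_nonneg hr (sq_nonneg (‖y η‖ - ‖y ζ‖)), mul_le_mul_of_nonneg_left h3 hr]

/-- the generators -/
def GG (M : VonNeumannAlgebra H) (r : ℝ) : Set (MT M →L[ℂ] ℂ) :=
  {z | ∃ η ζ : H, ‖η‖ ≤ 1 ∧ ‖ζ‖ ≤ 1 ∧ z = r • PD.vf M η ζ}

theorem mem_closure_hull {D : MT M →L[ℂ] ℂ} (hD : D ∈ NN M) {r : ℝ} (hr : 0 < r)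
    (hDr : ‖D‖ ≤ r) : D ∈ closure (convexHull ℝ (GG M r)) := by
  by_contra hcon
  obtain ⟨F, s, hF1, hF2⟩ := RCLike.geometric_hahn_banach_closed_point (𝕜 := ℂ)
    ((convex_convexHull ℝ (GG M r)).closure) isClosed_closure hcon
  obtain ⟨a, ha, hFa⟩ := exists_rep F
  have hk : ∀ η ζ : H, ‖η‖ ≤ 1 → ‖ζ‖ ≤ 1 → r * (⟪η, a ζ⟫_ℂ).re < s := by
    intro η ζ h1 h2
    have h3 := hF1 (r • PD.vf M η ζ) (subset_closure (subset_convexHull ℝ _ ⟨η, ζ, h1, h2, rfl⟩))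
    have e : (F (r • PD.vf M η ζ)).re = r * (⟪η, a ζ⟫_ℂ).re := by
      rw [real_smul_eq, map_smul, hFa, smul_eq_mul, Complex.re_ofReal_mul]
    rw [← e]
    exact h3
  have hs0 : 0 < s := by simpa using hk 0 0 (by simp) (by simp)
  have hna : ‖a‖ ≤ s / r := by
    refine ContinuousLinearMap.opNorm_le_of_unit_norm (by positivity) fun ζ hζ => ?_
    rw [le_div_iff₀ hr]
    rcases eq_or_ne (a ζ) 0 with h0 | h0
    · rw [h0, norm_zero, zero_mul]; exact hs0.le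
    · have hn : ‖a ζ‖ ≠ 0 := norm_ne_zero_iff.2 h0
      have h1 := hk (((‖a ζ‖⁻¹ : ℝ) : ℂ) • a ζ) ζ (by
        rw [norm_smul, Complex.norm_real, norm_inv, norm_norm, inv_mul_cancel₀ hn]) hζ.le
      have e : (⟪((‖a ζ‖⁻¹ : ℝ) : ℂ) • a ζ, a ζ⟫_ℂ).re = ‖a ζ‖ := by
        rw [inner_smul_left, Complex.conj_ofReal, inner_self_eq_norm_sq_to_K,
          Complex.re_ofReal_mul]
        show ‖a ζ‖⁻¹ * (((‖a ζ‖ : ℂ)) ^ 2).re = _
        rw [← Complex.ofReal_pow, Complex.ofReal_re]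
        field_simp
      rw [e] at h1
      linarith
  have h2 : (F D).re ≤ s := by
    rw [hD F a ha hFa]
    calc (D (MT.mk a ha)).re ≤ ‖D (MT.mk a ha)‖ := Complex.re_le_norm _
      _ ≤ ‖D‖ * ‖MT.mk a ha‖ := D.le_opNorm _
      _ ≤ r * (s / r) := by
        refine mul_le_mul hDr ?_ (norm_nonneg _) hr.le
        rw [← MT.norm_op, MT.op_mk]
        exact hna
      _ = s := by field_simp
  have h3 : s < (F D).re := hF2
  linarith

theorem step {D : MT M →L[ℂ] ℂ} (hD : D ∈ NN M) {r : ℝ} (hr : 0 < r) (hDr : ‖D‖ ≤ r) :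
    ∃ z, z ∈ NN M ∧ ‖D - z‖ ≤ r / 2 ∧ z ∈ DD M r := by
  obtain ⟨z, hz, hd⟩ := Metric.mem_closure_iff.1 (mem_closure_hull hD hr hDr) (r / 2)
    (by positivity)
  refine ⟨z, ?_, ?_, ?_⟩
  · refine convexHull_min ?_ NN.convex hz
    rintro _ ⟨η, ζ, -, -, rfl⟩
    exact NN.smul (NN.vf η ζ) r
  · rw [← dist_eq_norm]; exact hd.le
  · refine convexHull_min ?_ (DD.convex r) hz
    rintro _ ⟨η, ζ, h1, h2, rfl⟩
    exact DD.vf hr.le h1 h2

theorem dominated {D : MT M →L[ℂ] ℂ} (hD : D ∈ NN M) :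
    ∃ (θ : (H →L[ℂ] H) → ℂ) (m : ℝ), NPF M θ m ∧ ∀ y (hy : y ∈ M),
      (D (MT.mk (star y * y) (mul_mem (star_mem hy) hy))).re ≤ (θ (star y * y)).re := by
  set r : ℝ := ‖D‖ + 1 with hr
  have hr0 : 0 < r := by positivity
  have hrn : ∀ n : ℕ, 0 < r / 2 ^ n := fun n => by positivity
  have hst : ∀ (E : MT M →L[ℂ] ℂ) (t : ℝ), ∃ z, (E ∈ NN M ∧ 0 < t ∧ ‖E‖ ≤ t) →
      (z ∈ NN M ∧ ‖E - z‖ ≤ t / 2 ∧ z ∈ DD M t) := by
    intro E t
    by_cases h : E ∈ NN M ∧ 0 < t ∧ ‖E‖ ≤ t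
    · obtain ⟨z, hz⟩ := step h.1 h.2.1 h.2.2
      exact ⟨z, fun _ => hz⟩
    · exact ⟨0, fun h' => absurd h' h⟩
  choose f hf using hst
  let R : ℕ → (MT M →L[ℂ] ℂ) := fun n => Nat.rec D (fun n E => E - f E (r / 2 ^ n)) n
  have hRs : ∀ n, R (n + 1) = R n - f (R n) (r / 2 ^ n) := fun n => rfl
  have hR : ∀ n, R n ∈ NN M ∧ ‖R n‖ ≤ r / 2 ^ n := by
    intro n
    induction n with
    | zero =>
      refine ⟨hD, ?_⟩
      show ‖D‖ ≤ _
      rw [pow_zero, div_one, hr]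
      linarith
    | succ n ih =>
      obtain ⟨h1, h2, -⟩ := hf (R n) (r / 2 ^ n) ⟨ih.1, hrn n, ih.2⟩
      rw [hRs]
      refine ⟨NN.sub ih.1 h1, h2.trans (le_of_eq ?_)⟩
      rw [pow_succ]; field_simp
  set z : ℕ → (MT M →L[ℂ] ℂ) := fun n => f (R n) (r / 2 ^ n) with hz
  have hzD : ∀ n, z n ∈ DD M (r / 2 ^ n) := fun n =>
    (hf (R n) (r / 2 ^ n) ⟨(hR n).1, hrn n, (hR n).2⟩).2.2
  choose ρ hρ hρd using hzD
  have hsm : Summable fun n : ℕ => r / 2 ^ n := by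
    have h2 : (fun n : ℕ => r / 2 ^ n) = fun n : ℕ => r * (1 / 2 : ℝ) ^ n := by
      funext n; rw [div_pow, one_pow]; ring
    rw [h2]
    exact (summable_geometric_of_lt_one (by norm_num) (by norm_num)).mul_left _
  obtain ⟨θ, hθ, hθs⟩ := NPF.tsum hρ hsm
  refine ⟨θ, _, hθ, fun y hy => ?_⟩
  set Y := MT.mk (star y * y) (mul_mem (star_mem hy) hy) with hY
  have hsum : ∀ n, D = ∑ i ∈ Finset.range n, z i + R n := by
    intro n
    induction n with
    | zero => simp [R]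
    | succ n ih =>
      rw [Finset.sum_range_succ, hRs]
      rw [← show z n = f (R n) (r / 2 ^ n) from rfl]
      conv_lhs => rw [ih]
      abel
  have hb : ∀ n : ℕ, (D Y).re ≤ (θ (star y * y)).re + r / 2 ^ n * ‖Y‖ := by
    intro n
    have e : D Y = ∑ i ∈ Finset.range n, z i Y + R n Y := by
      conv_lhs => rw [hsum n]
      rw [add_apply, sum_apply]
    rw [e, Complex.add_re, Complex.re_sum]
    refine add_le_add ?_ ?_
    · have h2 := Complex.reCLM.hasSum (hθs _ (mul_mem (star_mem hy) hy))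
      have hpos' : ∀ j, 0 ≤ (ρ j (star y * y)).re := fun j => (hρ j).sq_nonneg hy
      refine (Finset.sum_le_sum fun i _ => hρd i y hy).trans ?_
      exact sum_le_hasSum _ (fun j _ => hpos' j) h2
    · refine (Complex.re_le_norm _).trans (((R n).le_opNorm Y).trans ?_)
      exact mul_le_mul_of_nonneg_right (hR n).2 (norm_nonneg _)
  have hlim : Tendsto (fun n : ℕ => (θ (star y * y)).re + r / 2 ^ n * ‖Y‖) atTop
      (𝓝 ((θ (star y * y)).re + 0 * ‖Y‖)) := by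
    refine tendsto_const_nhds.add (Tendsto.mul_const _ ?_)
    exact tendsto_const_nhds.div_atTop (tendsto_pow_atTop_atTop_of_one_lt one_lt_two)
  rw [zero_mul, add_zero] at hlim
  exact ge_of_tendsto' hlim hb

end Lim

/-- **Norm limits of normal states are normal states.** -/
theorem normal_of_norm_limit {M : VonNeumannAlgebra H} {φ : ℕ → (H →L[ℂ] H) → ℂ}
    {ψ : (H →L[ℂ] H) → ℂ} {C : ℝ} (hφ : ∀ k, IsNormalState M (φ k))
    (h : ∀ k, ∀ y ∈ M, ‖φ k y - ψ y‖ ≤ C / 2 ^ k * ‖y‖) : IsNormalState M ψ := by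
  have hC : Tendsto (fun k : ℕ => C / 2 ^ k) atTop (𝓝 0) :=
    tendsto_const_nhds.div_atTop (tendsto_pow_atTop_atTop_of_one_lt one_lt_two)
  have hψ : ∀ y ∈ M, Tendsto (fun k => φ k y) atTop (𝓝 (ψ y)) := by
    intro y hy
    rw [tendsto_iff_norm_sub_tendsto_zero]
    refine squeeze_zero (fun _ => norm_nonneg _) (fun k => h k y hy) ?_
    simpa using hC.mul_const ‖y‖
  have hadd : ∀ a ∈ M, ∀ b ∈ M, ψ (a + b) = ψ a + ψ b := fun a ha b hb =>
    tendsto_nhds_unique (hψ _ (add_mem ha hb)) (((hψ a ha).add (hψ b hb)).congr fun k =>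
      (state_add (hφ k) ha hb).symm)
  have hsmul : ∀ c : ℂ, ∀ a ∈ M, ψ (c • a) = c * ψ a := fun c a ha =>
    tendsto_nhds_unique (hψ _ (M.toStarSubalgebra.smul_mem ha c))
      (((hψ a ha).const_mul c).congr fun k => (state_smul (hφ k) c ha).symm)
  have hstar : ∀ a ∈ M, ψ (star a) = conj (ψ a) := fun a ha =>
    tendsto_nhds_unique (hψ _ (star_mem ha))
      (((Complex.continuous_conj.tendsto _).comp (hψ a ha)).congr fun k =>
        (state_star (hφ k) ha).symm)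
  have hre : ∀ a ∈ M, Tendsto (fun k => (φ k a).re) atTop (𝓝 (ψ a).re) :=
    fun a ha => (Complex.continuous_re.tendsto _).comp (hψ a ha)
  have hpos : ∀ a ∈ M, 0 ≤ (ψ (star a * a)).re := fun a ha =>
    ge_of_tendsto' (hre _ (mul_mem (star_mem ha) ha)) fun k => state_sq_nonneg (hφ k) ha
  have h1 : ψ 1 = 1 := by
    refine tendsto_nhds_unique (hψ _ (one_mem M)) ?_
    have e : (fun k => φ k 1) = fun _ => 1 := by
      funext k
      rw [state_one (hφ k)]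
    rw [e]
    exact tendsto_const_nhds
  -- the limit functional
  let Ψ : PD.MT M →L[ℂ] ℂ := LinearMap.mkContinuous
    { toFun := fun y => ψ y.op
      map_add' := fun y z => by rw [PD.MT.op_add, hadd _ y.op_mem _ z.op_mem]
      map_smul' := fun c y => by rw [PD.MT.op_smul, hsmul _ _ y.op_mem]; rfl } (1 + C) (fun y => by
    show ‖ψ y.op‖ ≤ _
    have b1 := h 0 y.op y.op_mem
    have b2 := PD.norm_state_le (hφ 0) y.op_mem
    rw [pow_zero, div_one] at b1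
    rw [PD.MT.norm_op] at b1 b2
    have b3 : ‖ψ y.op‖ ≤ ‖φ 0 y.op‖ + ‖φ 0 y.op - ψ y.op‖ := by
      have := norm_sub_le (φ 0 y.op) (φ 0 y.op - ψ y.op)
      rwa [sub_sub_cancel] at this
    linarith)
  have hΨ : ∀ y : PD.MT M, Ψ y = ψ y.op := fun _ => rfl
  choose V hV1 hV using fun k => PD.exists_vec (hφ k)
  have hC0 : 0 ≤ |C| := abs_nonneg C
  have hlim : Tendsto (fun k => PD.nf M (V k)) atTop (𝓝 Ψ) := by
    rw [tendsto_iff_norm_sub_tendsto_zero]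
    refine squeeze_zero (fun _ => norm_nonneg _) (g := fun k : ℕ => |C| / 2 ^ k) (fun k => ?_)
      (tendsto_const_nhds.div_atTop (tendsto_pow_atTop_atTop_of_one_lt one_lt_two))
    refine ContinuousLinearMap.opNorm_le_bound _ (by positivity) fun y => ?_
    have e : (PD.nf M (V k) - Ψ) y = φ k y.op - ψ y.op := by
      rw [sub_apply, hΨ, PD.nf_apply, hV k _ y.op_mem]
    rw [e]
    refine (h k _ y.op_mem).trans ?_
    rw [PD.MT.norm_op]
    gcongr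
    exact le_abs_self C
  have hN : Ψ ∈ Lim.NN M :=
    Lim.NN.closed.mem_of_tendsto hlim (Eventually.of_forall fun k => Lim.NN.nf (V k))
  obtain ⟨θ, m, hθ, hdom⟩ := Lim.dominated hN
  exact normal_of_dom hθ hadd hsmul hstar hpos (fun a ha => hdom a ha) h1

end Vale.Agent.P132
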